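import Vale.Agent.P033.H953.Even
import Vale.Agent.P033.H953.Exist
import Vale.Agent.P033.H953.Menon
import Vale.Agent.P033.H904.Odd

/-- The circulant Hadamard conjecture (1), the Barker sequence conjecture (2), cyclic difference
sets with `v = 4 (k - l)` (3), and periodic autocorrelations of sign sequences (4). -/
theorem Vale.Agent.Results.P033.BarkerSequences.result :
    (∀ n : ℕ, 1 ≤ n →
      ((∃ H : Matrix (Fin n) (Fin n) ℝ, (∀ i j, H i j = 1 ∨ H i j = -1) ∧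
          H * H.transpose = (n : ℝ) • (1 : Matrix (Fin n) (Fin n) ℝ) ∧
          ∃ h : Fin n → ℝ, ∀ i j : Fin n, H i j = h (j - i)) ↔ n = 1 ∨ n = 4)) ∧
    (∀ n : ℕ, 1 ≤ n →
      ((∃ a : ℕ → ℤ, (∀ j < n, a j = 1 ∨ a j = -1) ∧
          ∀ k, 1 ≤ k → k < n → |∑ j ∈ Finset.range (n - k), a j * a (j + k)| ≤ 1) ↔
        n ∈ ({1, 2, 3, 4, 5, 7, 11, 13} : Finset ℕ))) ∧
    (∀ v k l : ℕ, 1 ≤ v →
      ((∃ D : Finset (ZMod v), D.card = k ∧
          (∀ g : ZMod v, g ≠ 0 → ((D ×ˢ D).filter fun p => p.1 - p.2 = g).card = l) ∧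
          v + 4 * l = 4 * k) ↔
        v = 4 ∧ ((k = 1 ∧ l = 0) ∨ (k = 3 ∧ l = 2)))) ∧
    (∀ n : ℕ, 4 < n → 4 ∣ n → ∀ a : ℕ → ℤ, (∀ j < n, a j = 1 ∨ a j = -1) →
      ∃ t, 1 ≤ t ∧ t < n ∧ 4 ≤ |∑ j ∈ Finset.range n, a j * a ((j + t) % n)|) := by
  refine ⟨fun n hn => ⟨?_, ?_⟩, fun n hn => ⟨?_, Vale.Agent.P033.H953.barker_exists n⟩,
    fun v k l hv => Vale.Agent.P033.H953.menon_iff v k l hv, Vale.Agent.P033.H953.peak_four⟩
  · rintro ⟨H, h1, h2, h3⟩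
    have : NeZero n := ⟨by omega⟩
    obtain ⟨s, hs1, hac⟩ := Vale.Agent.P033.CH.order_iff_seq (n := n) ⟨hn, H, ⟨h1, h2⟩, h3⟩
    exact Vale.Agent.P033.H953.seq_four s hs1 hac
  · intro h
    have h' : Vale.Agent.P033.IsCirculantHadamardOrder n := by
      rcases h with rfl | rfl
      · exact Vale.Agent.P033.CH.one
      · exact Vale.Agent.P033.CH.four
    obtain ⟨_, H, ⟨h1, h2⟩, h3⟩ := h'
    exact ⟨H, h1, h2, h3⟩
  · rintro ⟨a, ha, hC⟩
    simp only [Finset.mem_insert, Finset.mem_singleton]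
    rcases Nat.even_or_odd n with he | ho
    · rcases Vale.Agent.P033.H953.even_barker n he (by omega) a ha hC with h | h <;> omega
    · rcases Vale.Agent.P033.H904.odd_barker n ho a ha hC with h | h | h | h | h | h <;> omega
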