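import Vale.Agent.P033.Defs
import Vale.Agent.P033.CH.Final
import Vale.Agent.P033.CH.Turyn
import Vale.Agent.P033.CH.Link

/-- The circulant Hadamard conjecture: a real circulant Hadamard matrix of order `n` exists
if and only if `n = 1` or `n = 4`. -/
theorem Vale.Agent.Results.P033.CirculantHadamard.result :
    ∀ n : ℕ, Vale.Agent.P033.IsCirculantHadamardOrder n ↔ n = 1 ∨ n = 4 := by
  intro n
  constructor
  · intro h
    by_contra hcon
    have h1 : n ≠ 1 := fun e => hcon (Or.inl e)
    have h4 : n ≠ 4 := fun e => hcon (Or.inr e)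
    have hpos : 1 ≤ n := h.1
    have : NeZero n := ⟨by omega⟩
    obtain ⟨s, hs1, hac⟩ := Vale.Agent.P033.CH.order_iff_seq h
    obtain ⟨v, hv⟩ := Vale.Agent.P033.CH.order_shape h1 s hs1 hac
    rcases Nat.even_or_odd v with he | ho
    · exact Vale.Agent.P033.CH.not_even hv he s hs1 hac
    · refine Vale.Agent.P033.CH.no_seq hv ho ?_ s hs1 hac
      rintro rfl
      exact h4 (by rw [hv]; norm_num)
  · rintro (rfl | rfl)
    · exact Vale.Agent.P033.CH.one
    · exact Vale.Agent.P033.CH.four
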